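import Vale.Agent.P130.Flat.Stage.Step

/-!
P130, stages: the limit of the Riesz products of a tower with summable defects.
-/

namespace Vale.Agent.P130.Flat

open MeasureTheory Finset Filter
open scoped Topology ComplexConjugate ENNReal

noncomputable section

namespace Stage

theorem ae_summable_norm {f : ℕ → ℝ → ℝ} (hf : ∀ l, Continuous (f l)) (c : ℕ → ℝ) (hc : Summable c)
    (h : ∀ l, ∫ θ, ‖f l θ‖ ∂leb ≤ c l) :
    (∀ᵐ θ ∂leb, Summable fun l => ‖f l θ‖) ∧ Integrable (fun θ => ∑' l, ‖f l θ‖) leb := by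
  have hle : ∀ l, ∫⁻ θ, ‖f l θ‖ₑ ∂leb ≤ ENNReal.ofReal (c l) := fun l => by
    rw [← ofReal_integral_norm_eq_lintegral_enorm (integrable_cont_real (hf l))]
    exact ENNReal.ofReal_le_ofReal (h l)
  have hsum : ∑' l, ∫⁻ θ, ‖f l θ‖ₑ ∂leb ≠ ∞ :=
    ne_top_of_le_ne_top hc.tsum_ofReal_ne_top (ENNReal.tsum_le_tsum hle)
  have hL : ∫⁻ θ, ∑' l, ‖f l θ‖ₑ ∂leb ≠ ∞ := by
    rwa [lintegral_tsum fun l => (hf l).measurable.enorm.aemeasurable]
  have hfin : ∀ᵐ θ ∂leb, Summable fun l => ‖f l θ‖ := by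
    filter_upwards [ae_lt_top (Measurable.tsum fun l => (hf l).measurable.enorm) hL] with θ hθ
    have := ENNReal.summable_toReal hθ.ne
    simpa using this
  refine ⟨hfin, ⟨(Measurable.tsum fun l => (hf l).norm.measurable).aestronglyMeasurable, ?_⟩⟩
  refine lt_of_le_of_lt (lintegral_mono_ae ?_) hL.lt_top
  filter_upwards [hfin] with θ hθ
  rw [Real.enorm_of_nonneg (tsum_nonneg fun l => norm_nonneg _),
    ENNReal.ofReal_tsum_of_nonneg (fun l => norm_nonneg _) hθ]
  exact ENNReal.tsum_le_tsum fun l => (ofReal_norm _).le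

variable (T : Tower)

theorem h_pos (k : ℕ) : 0 < T.h k := by
  induction k with
  | zero => rw [T.h_zero]; norm_num
  | succ k ih => have := T.n_top k; omega

theorem n_pos {k j : ℕ} (hj : 0 < j) (hjp : j < T.p k) : 0 < T.n k j := by
  obtain ⟨i, rfl⟩ := Nat.exists_eq_succ_of_ne_zero hj.ne'
  simp only [Nat.succ_eq_add_one] at hjp ⊢
  have := T.n_step k i hjp
  have := h_pos T k
  omega

theorem n_le {k j : ℕ} (hj : j < T.p k) : T.n k j + T.h k ≤ T.h (k + 1) := by
  have key : ∀ i, j + i < T.p k → T.n k j ≤ T.n k (j + i) := by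
    intro i
    induction i with
    | zero => intro _; exact le_rfl
    | succ i ih =>
      intro hi
      exact (ih (by omega)).trans (le_of_add_le_left (T.n_step k (j + i) hi))
  have := key (T.p k - 1 - j) (by omega)
  rw [show j + (T.p k - 1 - j) = T.p k - 1 by omega] at this
  have := T.n_top k
  omega

theorem continuous_P (k : ℕ) : Continuous (T.P k) := by
  have := continuous_ex
  unfold Tower.P; fun_prop

theorem continuous_R (k l : ℕ) : Continuous (T.R k l) := by
  have := fun i => continuous_P T i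
  unfold Tower.R; fun_prop

theorem R_nonneg (k l : ℕ) (θ : ℝ) : 0 ≤ T.R k l θ :=
  Finset.prod_nonneg fun i _ => by positivity

theorem R_self (k : ℕ) (θ : ℝ) : T.R k k θ = 1 := by simp [Tower.R]

theorem R_succ {k l : ℕ} (h : k ≤ l) (θ : ℝ) :
    T.R k (l + 1) θ = T.R k l θ * (‖T.P l θ‖ ^ 2 / T.p l) := Finset.prod_Ico_succ_top h _

theorem sq_P_trig (k : ℕ) {D : ℕ} (hD : ∀ j < T.p k, T.n k j ≤ D) :
    (fun θ => ((‖T.P k θ‖ ^ 2 : ℝ) : ℂ)) ∈ Trig D := by
  have h : (fun θ => ((‖T.P k θ‖ ^ 2 : ℝ) : ℂ)) = ∑ q ∈ range (T.p k) ×ˢ range (T.p k),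
      fun θ => ex ((((T.n k q.1 : ℤ) - T.n k q.2 : ℤ) : ℝ) * θ) := by
    funext θ
    rw [Finset.sum_apply, Complex.ofReal_pow, ← Complex.mul_conj', Tower.P, map_sum,
      Finset.sum_mul_sum, ← Finset.sum_product']
    refine Finset.sum_congr rfl fun q _ => ?_
    rw [conj_ex, ← ex_add]
    push_cast
    ring_nf
  rw [h]
  refine sum_mem fun q hq => ex_mem ?_
  simp only [Finset.mem_product, Finset.mem_range] at hq
  have := hD _ hq.1
  have := hD _ hq.2
  exact abs_le.2 ⟨by omega, by omega⟩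

theorem R_trig {k l : ℕ} (h : k ≤ l) : (fun θ => (T.R k l θ : ℂ)) ∈ Trig (T.h l - 1) := by
  induction l, h using Nat.le_induction with
  | base =>
    simp only [R_self, Complex.ofReal_one]
    exact trig_mono (Nat.zero_le _) trig_one
  | succ l hl ih =>
    have h1 : (fun θ => ((‖T.P l θ‖ ^ 2 : ℝ) : ℂ)) ∈ Trig (T.h (l + 1) - T.h l) :=
      sq_P_trig T l fun j hj => by have := n_le T hj; omega
    have h2 := trig_mul ih (Submodule.smul_mem _ ((T.p l : ℂ)⁻¹) h1)
    refine trig_mono ?_ (show _ ∈ Trig (T.h l - 1 + (T.h (l + 1) - T.h l)) from ?_) (d := _)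
    · have := n_le T (k := l) (j := 0) (by have := T.p_two l; omega)
      have := h_pos T l
      omega
    · convert h2 using 1
      funext θ
      simp only [Pi.mul_apply, Pi.smul_apply, smul_eq_mul, R_succ T hl]
      push_cast
      ring

/-- The defect of a stage against a partial product. -/
def gap (k l : ℕ) (θ : ℝ) : ℝ :=
  bump θ * T.R k l θ * (‖T.P l θ‖ / Real.sqrt (T.p l) - 1) ^ 2

theorem continuous_gap (k l : ℕ) : Continuous (gap T k l) := by
  have := continuous_bump
  have := continuous_R T k l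
  have := continuous_P T l
  unfold gap; fun_prop

theorem diff_le {k l : ℕ} (hkl : k ≤ l) (hmass : ∀ i j, i ≤ j → ∫ θ, bump θ * T.R i j θ ∂leb ≤ 4)
    (hgap : ∫ θ, gap T k l θ ∂leb ≤ 2 * (1 / 8 : ℝ) ^ l) :
    ∫ θ, ‖bump θ * T.R k (l + 1) θ - bump θ * T.R k l θ‖ ∂leb ≤ 9 * (1 / 2 : ℝ) ^ l := by
  set t : ℝ := (1 / 2 : ℝ) ^ l with ht
  have htpos : 0 < t := by positivity
  have hc1 : Continuous fun θ => bump θ * T.R k (l + 1) θ := continuous_bump.mul (continuous_R T _ _)
  have hc0 : Continuous fun θ => bump θ * T.R k l θ := continuous_bump.mul (continuous_R T _ _)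
  have hpt : ∀ θ, ‖bump θ * T.R k (l + 1) θ - bump θ * T.R k l θ‖ ≤
      1 / (2 * t) * gap T k l θ + t * (bump θ * T.R k (l + 1) θ + bump θ * T.R k l θ) := by
    intro θ
    set v : ℝ := ‖T.P l θ‖ / Real.sqrt (T.p l) with hv
    have hv2 : ‖T.P l θ‖ ^ 2 / T.p l = v ^ 2 := by
      rw [hv, div_pow, Real.sq_sqrt (Nat.cast_nonneg _)]
    have hv0 : 0 ≤ v := by positivity
    set A : ℝ := bump θ * T.R k l θ with hA
    have hA0 : 0 ≤ A := mul_nonneg (bump_nonneg θ) (R_nonneg T k l θ)
    have e1 : bump θ * T.R k (l + 1) θ = A * v ^ 2 := by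
      rw [R_succ T hkl, hv2, hA]; ring
    rw [e1, show gap T k l θ = A * (v - 1) ^ 2 from rfl, Real.norm_eq_abs,
      show A * v ^ 2 - A = A * ((v - 1) * (v + 1)) by ring, abs_mul, abs_of_nonneg hA0]
    have key : |(v - 1) * (v + 1)| ≤ 1 / (2 * t) * (v - 1) ^ 2 + t * (v ^ 2 + 1) := by
      rw [abs_mul, abs_of_nonneg (by linarith : 0 ≤ v + 1)]
      have h1 : 2 * t * (|v - 1| * (v + 1)) ≤ (v - 1) ^ 2 + t ^ 2 * (v + 1) ^ 2 := by
        nlinarith [sq_nonneg (|v - 1| - t * (v + 1)), sq_abs (v - 1)]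
      have h2 : t ^ 2 * (v + 1) ^ 2 ≤ t ^ 2 * (2 * (v ^ 2 + 1)) :=
        mul_le_mul_of_nonneg_left (by nlinarith [sq_nonneg (v - 1)]) (sq_nonneg t)
      rw [show 1 / (2 * t) * (v - 1) ^ 2 + t * (v ^ 2 + 1) =
        ((v - 1) ^ 2 + t ^ 2 * (2 * (v ^ 2 + 1))) / (2 * t) by field_simp, le_div_iff₀ (by positivity)]
      linarith
    nlinarith [mul_le_mul_of_nonneg_left key hA0]
  have i1 : Integrable (fun θ => 1 / (2 * t) * gap T k l θ) leb :=
    (integrable_cont_real (continuous_gap T k l)).const_mul _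
  have i2 : Integrable (fun θ => t * (bump θ * T.R k (l + 1) θ + bump θ * T.R k l θ)) leb :=
    ((integrable_cont_real hc1).add (integrable_cont_real hc0)).const_mul _
  refine (integral_mono (integrable_cont_real (hc1.sub hc0)).norm (i1.add i2) hpt).trans ?_
  simp only [Pi.add_apply]
  rw [integral_add i1 i2, integral_const_mul, integral_const_mul,
    integral_add (integrable_cont_real hc1) (integrable_cont_real hc0)]
  have h4 := hmass k (l + 1) (by omega)
  have h5 := hmass k l hkl
  have h6 : 1 / (2 * t) * ∫ θ, gap T k l θ ∂leb ≤ t := by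
    refine (mul_le_mul_of_nonneg_left hgap (by positivity)).trans ?_
    rw [show (1 / 8 : ℝ) ^ l = t ^ 3 by rw [ht, ← pow_mul, mul_comm, pow_mul]; norm_num]
    rw [show 1 / (2 * t) * (2 * t ^ 3) = t * t by field_simp]
    exact mul_le_of_le_one_left htpos.le (pow_le_one₀ (by norm_num) (by norm_num))
  nlinarith

theorem ae_P_ne_zero (k : ℕ) : ∀ᵐ θ ∂leb, T.P k θ ≠ 0 := by
  classical
  set q : Polynomial ℂ := ∑ j ∈ range (T.p k), Polynomial.X ^ T.n k j with hq
  have hp0 : (0 : ℕ) ∈ range (T.p k) := Finset.mem_range.2 (by have := T.p_two k; omega)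
  have hcoeff : q.coeff 0 = 1 := by
    rw [hq, Polynomial.finsetSum_coeff, Finset.sum_eq_single 0]
    · simp [T.n_zero]
    · intro j hj hj0
      have := n_pos T (Nat.pos_of_ne_zero hj0) (Finset.mem_range.1 hj)
      simp [Polynomial.coeff_X_pow, this.ne]
    · exact fun h => absurd hp0 h
  have hq0 : q ≠ 0 := fun h => by simp [h] at hcoeff
  have hfin : ({θ : ℝ | θ ∈ Set.Ioc 0 1 ∧ T.P k θ = 0}).Finite := by
    refine Set.Finite.of_injOn (f := ex) (t := (q.roots.toFinset : Set ℂ)) ?_ ?_ (Finset.finite_toSet _)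
    · rintro θ ⟨-, h0⟩
      rw [Finset.mem_coe, Multiset.mem_toFinset, Polynomial.mem_roots hq0, Polynomial.IsRoot.def,
        hq, Polynomial.eval_finsetSum, ← h0, Tower.P]
      refine Finset.sum_congr rfl fun j _ => ?_
      rw [Polynomial.eval_pow, Polynomial.eval_X, ex, ← Complex.exp_nat_mul, ex]
      push_cast
      ring_nf
    · rintro a ⟨ha, -⟩ b ⟨hb, -⟩ h
      have h1 : ex (a - b) = 1 := by
        rw [sub_eq_add_neg, ex_add, h, ← ex_add, add_neg_cancel, ex_zero]
      obtain ⟨n, hn⟩ := (ex_eq_one_iff _).1 h1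
      have : n = 0 := by
        have h2 : ((-1 : ℤ) : ℝ) < n := by push_cast; linarith [ha.1, hb.2]
        have h3 : (n : ℝ) < ((1 : ℤ) : ℝ) := by push_cast; linarith [ha.2, hb.1]
        have := Int.cast_lt.1 h2
        have := Int.cast_lt.1 h3
        omega
      rw [this, Int.cast_zero] at hn
      linarith
  filter_upwards [ae_restrict_mem measurableSet_Ioc,
    ae_restrict_of_ae (hfin.countable.ae_notMem volume)] with θ hθ hnot h0
  exact hnot ⟨hθ, h0⟩

theorem ae_bump_pos : ∀ᵐ θ ∂leb, 0 < bump θ := by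
  filter_upwards [ae_restrict_mem measurableSet_Ioc,
    ae_restrict_of_ae (Set.countable_singleton (1 : ℝ) |>.ae_notMem volume)] with θ hθ h1
  refine lt_of_le_of_ne (bump_nonneg θ) fun h => ?_
  have : ex θ = 1 := by
    have h2 : ‖1 - ex θ‖ = 0 := eq_zero_of_pow_eq_zero h.symm
    exact (sub_eq_zero.1 (norm_eq_zero.1 h2)).symm
  obtain ⟨n, hn⟩ := (ex_eq_one_iff _).1 this
  have h1' : θ < 1 := lt_of_le_of_ne hθ.2 h1
  rw [hn] at h1'
  have h0 : (0 : ℝ) < n := hn ▸ hθ.1
  have : (0 : ℤ) < n := by exact_mod_cast h0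
  have : n < 1 := by exact_mod_cast h1'
  omega

/-- Summable defects give the limit. -/
theorem rieszFlat_of_gap (hmass : ∀ i j, i ≤ j → ∫ θ, T.R i j θ ∂leb = 1)
    (hgap : ∀ i l, i ≤ l → ∫ θ, gap T i l θ ∂leb ≤ 2 * (1 / 8 : ℝ) ^ l) : T.RieszFlat := by
  have hmass4 : ∀ i j, i ≤ j → ∫ θ, bump θ * T.R i j θ ∂leb ≤ 4 := by
    intro i j hij
    calc ∫ θ, bump θ * T.R i j θ ∂leb ≤ ∫ θ, 4 * T.R i j θ ∂leb :=
          integral_mono (integrable_cont_real (continuous_bump.mul (continuous_R T i j)))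
            ((integrable_cont_real (continuous_R T i j)).const_mul 4)
            fun θ => mul_le_mul_of_nonneg_right (bump_le_four θ) (R_nonneg T i j θ)
      _ = 4 := by rw [integral_const_mul, hmass i j hij, mul_one]
  -- summability of the moduli
  set u : ℕ → ℝ → ℝ := fun l θ => bump θ * (‖T.P l θ‖ / Real.sqrt (T.p l) - 1) with hu
  have huc : ∀ l, Continuous (u l) := fun l => by
    have := continuous_bump
    have := continuous_P T l
    simp only [hu]; fun_prop
  have hu_le : ∀ l, ∫ θ, ‖u l θ‖ ∂leb ≤ 3 * (1 / 2 : ℝ) ^ l := by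
    intro l
    set t : ℝ := (1 / 2 : ℝ) ^ l with ht
    have htpos : 0 < t := by positivity
    have hpt : ∀ θ, ‖u l θ‖ ≤ 1 / (2 * t) * gap T l l θ + t / 2 * bump θ := by
      intro θ
      set y : ℝ := ‖T.P l θ‖ / Real.sqrt (T.p l) - 1 with hy
      rw [show gap T l l θ = bump θ * y ^ 2 by rw [gap, R_self, mul_one],
        show u l θ = bump θ * y from rfl, norm_mul, Real.norm_of_nonneg (bump_nonneg θ),
        Real.norm_eq_abs]
      have key : |y| ≤ 1 / (2 * t) * y ^ 2 + t / 2 := by
        rw [show 1 / (2 * t) * y ^ 2 + t / 2 = (y ^ 2 + t ^ 2) / (2 * t) by field_simp,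
          le_div_iff₀ (by positivity)]
        nlinarith [sq_nonneg (|y| - t), sq_abs y]
      nlinarith [mul_le_mul_of_nonneg_left key (bump_nonneg θ)]
    have i1 : Integrable (fun θ => 1 / (2 * t) * gap T l l θ) leb :=
      (integrable_cont_real (continuous_gap T l l)).const_mul _
    have i2 : Integrable (fun θ => t / 2 * bump θ) leb :=
      (integrable_cont_real continuous_bump).const_mul _
    refine (integral_mono (integrable_cont_real (huc l)).norm (i1.add i2) hpt).trans ?_
    simp only [Pi.add_apply]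
    rw [integral_add i1 i2, integral_const_mul, integral_const_mul]
    have hb : ∫ θ, bump θ ∂leb ≤ 4 := by
      refine (integral_mono (integrable_cont_real continuous_bump) (integrable_const 4)
        bump_le_four).trans_eq ?_
      simp
    have h6 : 1 / (2 * t) * ∫ θ, gap T l l θ ∂leb ≤ t := by
      refine (mul_le_mul_of_nonneg_left (hgap l l le_rfl) (by positivity)).trans ?_
      rw [show (1 / 8 : ℝ) ^ l = t ^ 3 by rw [ht, ← pow_mul, mul_comm, pow_mul]; norm_num]
      rw [show 1 / (2 * t) * (2 * t ^ 3) = t * t by field_simp]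
      exact mul_le_of_le_one_left htpos.le (pow_le_one₀ (by norm_num) (by norm_num))
    nlinarith
  have hgeo : Summable fun l : ℕ => (1 / 2 : ℝ) ^ l :=
    summable_geometric_of_lt_one (by norm_num) (by norm_num)
  have hae1 := (ae_summable_norm huc _ (hgeo.mul_left 3) hu_le).1
  -- the pointwise limit
  set L : ℝ → ℝ := fun θ => limsup (fun l => T.R 0 l θ) atTop with hL
  have hLmeas : Measurable L := Measurable.limsup fun l => (continuous_R T 0 l).measurable
  have hlim : ∀ᵐ θ ∂leb, Tendsto (fun l => T.R 0 l θ) atTop (𝓝 (L θ)) ∧ 0 < L θ ∧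
      ∀ i, T.P i θ ≠ 0 := by
    filter_upwards [hae1, ae_bump_pos, ae_all_iff.2 (ae_P_ne_zero T)] with θ hs hb hP
    set v : ℕ → ℝ := fun l => ‖T.P l θ‖ / Real.sqrt (T.p l) with hv
    have hvpos : ∀ l, 0 < v l := fun l => by
      have : (0 : ℝ) < T.p l := by exact_mod_cast (show 0 < T.p l by have := T.p_two l; omega)
      exact div_pos (norm_pos_iff.2 (hP l)) (Real.sqrt_pos.2 this)
    have hsv : Summable fun l => v l - 1 := by
      refine Summable.of_norm ?_
      have : ∀ l, ‖v l - 1‖ = (bump θ)⁻¹ * ‖u l θ‖ := fun l => by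
        simp only [hu, norm_mul, Real.norm_of_nonneg (bump_nonneg θ)]
        rw [← mul_assoc, inv_mul_cancel₀ hb.ne', one_mul]
      simp only [this]
      exact hs.mul_left _
    have hlog : Summable fun l => Real.log (v l) := by
      have := Real.summable_log_one_add_of_summable hsv
      simpa using this
    have hR : ∀ l, T.R 0 l θ = Real.exp (2 * ∑ i ∈ range l, Real.log (v i)) := fun l => by
      rw [Tower.R, ← Finset.range_eq_Ico, Finset.mul_sum, Real.exp_sum]
      refine Finset.prod_congr rfl fun i _ => ?_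
      rw [two_mul, Real.exp_add, Real.exp_log (hvpos i), ← sq, hv]
      rw [div_pow, Real.sq_sqrt (Nat.cast_nonneg _)]
    have ht : Tendsto (fun l => T.R 0 l θ) atTop (𝓝 (Real.exp (2 * ∑' i, Real.log (v i)))) := by
      simp only [hR]
      exact (Real.continuous_exp.tendsto _).comp (hlog.hasSum.tendsto_sum_nat.const_mul 2)
    have hLθ : L θ = Real.exp (2 * ∑' i, Real.log (v i)) := ht.limsup_eq
    exact ⟨hLθ ▸ ht, hLθ ▸ Real.exp_pos _, hP⟩
  set G : ℕ → ℝ → ℂ := fun k θ =>
    (Real.sqrt (L θ) : ℂ) * ∏ i ∈ range k, ((Real.sqrt (T.p i) : ℂ) / T.P i θ) with hG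
  have hGnorm : ∀ k θ, 0 ≤ L θ → (∀ i, T.P i θ ≠ 0) → ‖G k θ‖ ^ 2 = L θ / T.R 0 k θ := by
    intro k θ h0 hP
    rw [hG, norm_mul, Complex.norm_real, Real.norm_of_nonneg (Real.sqrt_nonneg _), norm_prod,
      mul_pow, Real.sq_sqrt h0, ← Finset.prod_pow, Tower.R, ← Finset.range_eq_Ico,
      div_eq_mul_inv (L θ), ← Finset.prod_inv_distrib]
    congr 1
    refine Finset.prod_congr rfl fun i _ => ?_
    rw [norm_div, Complex.norm_real, Real.norm_of_nonneg (Real.sqrt_nonneg _), div_pow,
      Real.sq_sqrt (Nat.cast_nonneg _), inv_div]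
  have hGmeas : ∀ k, Measurable (G k) := fun k => by
    refine (Complex.continuous_ofReal.measurable.comp hLmeas.sqrt).mul ?_
    exact Finset.measurable_prod _ fun i _ => measurable_const.div (continuous_P T i).measurable
  -- the weighted products at a fixed start
  have hdiff : ∀ k m : ℕ, ∫ θ, ‖bump θ * T.R k (k + m + 1) θ - bump θ * T.R k (k + m) θ‖ ∂leb ≤
      9 * (1 / 2 : ℝ) ^ m := fun k m => by
    refine (diff_le T (Nat.le_add_right k m) hmass4 (hgap k (k + m) (Nat.le_add_right k m))).trans ?_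
    exact mul_le_mul_of_nonneg_left (pow_le_pow_of_le_one (by norm_num) (by norm_num)
      (Nat.le_add_left m k)) (by norm_num)
  have hdc : ∀ k m : ℕ,
      Continuous fun θ => bump θ * T.R k (k + m + 1) θ - bump θ * T.R k (k + m) θ := fun k m =>
    (continuous_bump.mul (continuous_R T _ _)).sub (continuous_bump.mul (continuous_R T _ _))
  set D : ℕ → ℝ → ℝ := fun k θ =>
    bump θ + ∑' m, ‖bump θ * T.R k (k + m + 1) θ - bump θ * T.R k (k + m) θ‖ with hD
  have hDint : ∀ k, Integrable (D k) leb := fun k =>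
    (integrable_cont_real continuous_bump).add
      (ae_summable_norm (hdc k) _ (hgeo.mul_left 9) (hdiff k)).2
  have hbound : ∀ k, ∀ᵐ θ ∂leb, ∀ m, bump θ * T.R k (k + m) θ ≤ D k θ := fun k => by
    filter_upwards [(ae_summable_norm (hdc k) _ (hgeo.mul_left 9) (hdiff k)).1] with θ hs m
    have key : bump θ * T.R k (k + m) θ ≤ bump θ +
        ∑ i ∈ range m, ‖bump θ * T.R k (k + i + 1) θ - bump θ * T.R k (k + i) θ‖ := by
      induction m with
      | zero => simp [R_self]
      | succ m ih =>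
        rw [Finset.sum_range_succ, ← add_assoc k m 1]
        have := Real.le_norm_self (bump θ * T.R k (k + m + 1) θ - bump θ * T.R k (k + m) θ)
        linarith
    exact key.trans (add_le_add le_rfl (hs.sum_le_tsum _ fun i _ => norm_nonneg _))
  have hconv : ∀ k, ∀ᵐ θ ∂leb, Tendsto (fun m => bump θ * T.R k (k + m) θ) atTop
      (𝓝 (bump θ * ‖G k θ‖ ^ 2)) := fun k => by
    filter_upwards [hlim] with θ hθ
    obtain ⟨ht, hpos, hP⟩ := hθ
    rw [hGnorm k θ hpos.le hP]
    refine Tendsto.const_mul _ ?_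
    have hR0 : T.R 0 k θ ≠ 0 := Finset.prod_ne_zero_iff.2 fun i _ => by
      have : 0 < T.p i := by have := T.p_two i; omega
      have := norm_pos_iff.2 (hP i)
      positivity
    have hsplit : ∀ m, T.R k (k + m) θ = T.R 0 (k + m) θ / T.R 0 k θ := fun m => by
      rw [eq_div_iff hR0, mul_comm]
      exact Finset.prod_Ico_consecutive _ (Nat.zero_le k) (Nat.le_add_right k m)
    simp only [hsplit]
    refine Tendsto.div_const ?_ _
    exact ht.comp ((tendsto_add_atTop_nat k).congr fun m => add_comm m k)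
  have hGint : ∀ k, Integrable (fun θ => bump θ * ‖G k θ‖ ^ 2) leb := fun k => by
    refine Integrable.mono' (hDint k) (continuous_bump.measurable.mul
      ((hGmeas k).norm.pow_const 2)).aestronglyMeasurable ?_
    filter_upwards [hbound k, hconv k] with θ hb hc
    rw [Real.norm_of_nonneg (mul_nonneg (bump_nonneg θ) (sq_nonneg _))]
    exact le_of_tendsto' hc hb
  refine ⟨G, hGmeas, fun k => ?_, fun k => ?_, hGint, fun k a => ?_⟩
  · filter_upwards [hlim] with θ hθ
    obtain ⟨-, hpos, hP⟩ := hθ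
    refine mul_ne_zero (Complex.ofReal_ne_zero.2 (Real.sqrt_pos.2 hpos).ne')
      (Finset.prod_ne_zero_iff.2 fun i _ => div_ne_zero (Complex.ofReal_ne_zero.2 ?_) (hP i))
    exact (Real.sqrt_pos.2 (by exact_mod_cast (show 0 < T.p i by have := T.p_two i; omega))).ne'
  · filter_upwards [hlim] with θ hθ
    obtain ⟨-, -, hP⟩ := hθ
    have hp : (Real.sqrt (T.p k) : ℂ) ≠ 0 := Complex.ofReal_ne_zero.2
      (Real.sqrt_pos.2 (by exact_mod_cast (show 0 < T.p k by have := T.p_two k; omega))).ne'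
    simp only [hG, Finset.prod_range_succ]
    have := hP k
    field_simp
  · rw [← tendsto_add_atTop_iff_nat k]
    refine tendsto_integral_of_dominated_convergence (D k) (fun m => ?_) (hDint k) (fun m => ?_) ?_
    · exact ((continuous_ex.comp (continuous_const.mul continuous_id)).mul
        (Complex.continuous_ofReal.comp
          (continuous_bump.mul (continuous_R T k (m + k))))).aestronglyMeasurable
    · filter_upwards [hbound k] with θ hb
      rw [norm_mul, norm_ex, one_mul, Complex.norm_real,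
        Real.norm_of_nonneg (mul_nonneg (bump_nonneg θ) (R_nonneg T _ _ θ)), add_comm m k]
      exact hb m
    · filter_upwards [hconv k] with θ hc
      simp only [add_comm _ k]
      exact ((Complex.continuous_ofReal.tendsto _).comp hc).const_mul _

end Stage

end

end Vale.Agent.P130.Flat
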