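import Vale.Agent.P130.Flat.Stage.Trig

/-!
P130, stages: one stage. The flat sum, read along `θ ↦ (H θ, θ)`, is close to flat against every
weight of low degree.
-/

namespace Vale.Agent.P130.Flat

open MeasureTheory Finset Filter
open scoped Topology ComplexConjugate

noncomputable section

namespace Stage

variable {N : ℕ} {s : ℕ → ℕ} {A K : ℕ}

theorem continuous_flatF (τ : ℝ) : Continuous (flatF N s τ) := by
  have := continuous_ex
  unfold flatF; fun_prop

theorem continuous_flatF_tau (θ : ℝ) : Continuous fun τ => flatF N s τ θ := by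
  have := continuous_ex
  unfold flatF; fun_prop

theorem sq_flatF (τ θ : ℝ) :
    ((‖flatF N s τ θ‖ ^ 2 : ℝ) : ℂ) = ∑ q ∈ range N ×ˢ range N,
      ((N : ℂ)⁻¹ * ex ((((q.1 : ℤ) - q.2 : ℤ) : ℝ) * τ)) *
        ex ((((s q.1 : ℤ) - s q.2 : ℤ) : ℝ) * θ) := by
  rw [Complex.ofReal_pow, ← Complex.mul_conj', flatF, map_mul, Complex.conj_ofReal, map_sum,
    mul_mul_mul_comm, ← Complex.ofReal_mul, ← mul_inv, Real.mul_self_sqrt (Nat.cast_nonneg _),
    Finset.sum_mul_sum, ← Finset.sum_product', Finset.mul_sum]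
  refine Finset.sum_congr rfl fun q _ => ?_
  rw [conj_ex, ← ex_add, mul_assoc, ← ex_add]
  push_cast
  ring_nf

theorem mean_sq (hN : 0 < N) (θ : ℝ) :
    ∫ τ, ((‖flatF N s τ θ‖ ^ 2 : ℝ) : ℂ) ∂leb = 1 := by
  simp only [sq_flatF]
  rw [integral_finsetSum _ fun q _ => integrable_cont (by have := continuous_ex; fun_prop)]
  simp only [integral_mul_const, integral_const_mul, integral_ex]
  rw [Finset.sum_product, Finset.sum_congr rfl (fun i hi => Finset.sum_eq_single i ?_ ?_)]
  · simp only [sub_self, if_true, Int.cast_zero, zero_mul, ex_zero, mul_one, Finset.sum_const,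
      Finset.card_range, nsmul_eq_mul]
    exact mul_inv_cancel₀ (by exact_mod_cast hN.ne')
  · intro j _ hj
    rw [if_neg (by omega)]; simp
  · intro h; exact absurd hi h

/-- The inner product of the sum with the comparison function. -/
def inner (N : ℕ) (s : ℕ → ℕ) (K : ℕ) (g : ℤ → ℝ → ℂ) (θ : ℝ) : ℝ :=
  (∫ τ, flatF N s τ θ * conj (smoothG K g τ θ) ∂leb).re

theorem cross_eq (g : ℤ → ℝ → ℂ) (τ θ : ℝ) :
    flatF N s τ θ * conj (smoothG K g τ θ) =
      ∑ q ∈ range N ×ˢ Finset.Icc (-(K : ℤ)) K,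
        ((((Real.sqrt N)⁻¹ : ℝ) : ℂ) * ex ((q.1 : ℝ) * τ) * conj (g q.2 τ)) *
          ex ((((s q.1 : ℤ) - q.2 : ℤ) : ℝ) * θ) := by
  rw [flatF, smoothG, map_sum, mul_assoc, Finset.sum_mul_sum, ← Finset.sum_product', Finset.mul_sum]
  refine Finset.sum_congr rfl fun q _ => ?_
  rw [map_mul, conj_ex, ex_add,
    show (((s q.1 : ℤ) - q.2 : ℤ) : ℝ) * θ = (s q.1 : ℝ) * θ + -((q.2 : ℝ) * θ) by push_cast; ring,
    ex_add]
  ring

theorem measurable_cross (g : ℤ → ℝ → ℂ) (hg : ∀ k, Measurable (g k)) (θ : ℝ) :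
    Measurable fun τ => flatF N s τ θ * conj (smoothG K g τ θ) := by
  refine (continuous_flatF_tau θ).measurable.mul (Complex.continuous_conj.measurable.comp ?_)
  unfold smoothG
  exact Finset.measurable_sum _ fun k _ => (hg k).mul_const _

variable {g : ℤ → ℝ → ℂ} {B ε : ℝ}

theorem continuous_inner (hg : ∀ k, Measurable (g k) ∧ Function.Periodic (g k) 1 ∧ ∀ τ, ‖g k τ‖ ≤ B) :
    Continuous (inner N s K g) := by
  unfold inner
  refine Complex.continuous_re.comp ?_
  simp only [cross_eq]
  have hint : ∀ q : ℕ × ℤ, Integrable (fun τ =>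
      (((Real.sqrt N)⁻¹ : ℝ) : ℂ) * ex ((q.1 : ℝ) * τ) * conj (g q.2 τ)) leb := fun q =>
    (integrable_cont (by have := continuous_ex; fun_prop)).mul_bdd
      (Complex.continuous_conj.measurable.comp (hg q.2).1).aestronglyMeasurable
      (Filter.Eventually.of_forall fun τ => by simpa using (hg q.2).2.2 τ)
  simp only [integral_finsetSum _ fun q _ => (hint q).mul_const _, integral_mul_const]
  have := continuous_ex
  fun_prop

theorem inner_le (hN : 0 < N)
    (hG : ∀ τ θ, ‖smoothG K g τ θ‖ ≤ 1 + ε) (θ : ℝ) : |inner N s K g θ| ≤ 1 + ε := by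
  have h0 : 0 ≤ 1 + ε := (norm_nonneg _).trans (hG 0 0)
  refine (Complex.abs_re_le_norm _).trans ((norm_integral_le_integral_norm _).trans ?_)
  have hsq : Integrable (fun τ => ‖flatF N s τ θ‖ ^ 2) leb :=
    integrable_cont_real ((continuous_flatF_tau θ).norm.pow 2)
  have hmean : ∫ τ, ‖flatF N s τ θ‖ ^ 2 ∂leb = 1 := by
    have h := mean_sq (s := s) hN θ
    rw [integral_complex_ofReal] at h
    exact_mod_cast h
  have hb : ∀ τ, ‖flatF N s τ θ * conj (smoothG K g τ θ)‖ ≤
      (1 + ε) / 2 * ‖flatF N s τ θ‖ ^ 2 + (1 + ε) / 2 := fun τ => by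
    rw [norm_mul, Complex.norm_conj]
    refine (mul_le_mul_of_nonneg_left (hG τ θ) (norm_nonneg _)).trans ?_
    nlinarith [sq_nonneg (‖flatF N s τ θ‖ - 1)]
  refine (integral_mono_of_nonneg (Filter.Eventually.of_forall fun _ => norm_nonneg _)
    ((hsq.const_mul _).add (integrable_const _)) (Filter.Eventually.of_forall hb)).trans_eq ?_
  simp only [Pi.add_apply]
  rw [integral_add (hsq.const_mul _) (integrable_const _), integral_const_mul, hmean]
  simp

/-- A weight of low degree. -/
structure Weight (h : ℕ) (R : ℝ → ℝ) : Prop where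
  trig : (fun θ => (R θ : ℂ)) ∈ Trig (h - 1)
  nonneg : ∀ θ, 0 ≤ R θ
  mass : ∫ θ, R θ ∂leb = 1

theorem Weight.continuous {h : ℕ} {R : ℝ → ℝ} (hR : Weight h R) : Continuous R :=
  Complex.continuous_re.comp (trig_continuous hR.trig)

theorem sq_mean (hN : 0 < N) (hs : ∀ j < N, s j < A) {d : ℕ} {f : ℝ → ℝ}
    (hf : (fun θ => (f θ : ℂ)) ∈ Trig d) {H : ℕ} (hH : d + A < H) :
    ∫ θ, f θ * ‖flatF N s ((H : ℝ) * θ) θ‖ ^ 2 ∂leb = ∫ θ, f θ ∂leb := by
  apply Complex.ofReal_injective
  rw [← integral_complex_ofReal, ← integral_complex_ofReal]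
  simp only [Complex.ofReal_mul]
  simp only [sq_flatF]
  have hm : ∀ q : ℕ × ℕ, Measurable fun τ : ℝ =>
      (N : ℂ)⁻¹ * ex ((((q.1 : ℤ) - q.2 : ℤ) : ℝ) * τ) := fun q => by
    refine Continuous.measurable ?_
    have := continuous_ex
    fun_prop
  rw [separate_sum hf H (range N ×ˢ range N) (fun q : ℕ × ℕ => (s q.1 : ℤ) - s q.2) (fun q hq => ?_)
    (fun q τ => (N : ℂ)⁻¹ * ex ((((q.1 : ℤ) - q.2 : ℤ) : ℝ) * τ))
    hm
    (fun q τ => by simp only [mul_add, mul_one]; rw [ex_add_int])
    1 (fun q τ => by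
      rw [norm_mul, norm_ex, mul_one, norm_inv, Complex.norm_natCast]
      exact inv_le_one_of_one_le₀ (by exact_mod_cast hN))]
  · refine integral_congr_ae (Filter.Eventually.of_forall fun θ => ?_)
    simp only [← sq_flatF, mean_sq hN, mul_one]
  · simp only [Finset.mem_product, Finset.mem_range] at hq
    have h1 := hs _ hq.1
    have h2 := hs _ hq.2
    have : |(s q.1 : ℤ) - s q.2| ≤ A := abs_le.2 ⟨by omega, by omega⟩
    omega

theorem cross_mean (hg : ∀ k, Measurable (g k) ∧ Function.Periodic (g k) 1 ∧ ∀ τ, ‖g k τ‖ ≤ B)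
    (hs : ∀ j < N, s j < A) {d : ℕ} {f : ℝ → ℝ} (hf : (fun θ => (f θ : ℂ)) ∈ Trig d) {H : ℕ}
    (hH : d + A + K < H) :
    (∫ θ, (f θ : ℂ) * (flatF N s ((H : ℝ) * θ) θ * conj (smoothG K g ((H : ℝ) * θ) θ)) ∂leb) =
      ∫ θ, (f θ : ℂ) * ∫ τ, flatF N s τ θ * conj (smoothG K g τ θ) ∂leb ∂leb := by
  simp only [cross_eq]
  have hm : ∀ q : ℕ × ℤ, Measurable fun τ : ℝ =>
      (((Real.sqrt N)⁻¹ : ℝ) : ℂ) * ex ((q.1 : ℝ) * τ) * conj (g q.2 τ) := fun q => by
    refine Measurable.mul (Continuous.measurable ?_)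
      (Complex.continuous_conj.measurable.comp (hg q.2).1)
    have := continuous_ex
    fun_prop
  refine separate_sum hf H (range N ×ˢ Finset.Icc (-(K : ℤ)) K)
    (fun q : ℕ × ℤ => (s q.1 : ℤ) - q.2) (fun q hq => ?_)
    (fun q τ => (((Real.sqrt N)⁻¹ : ℝ) : ℂ) * ex ((q.1 : ℝ) * τ) * conj (g q.2 τ))
    hm
    (fun q τ => ?_) (|(Real.sqrt N)⁻¹| * B) (fun q τ => ?_)
  · simp only [Finset.mem_product, Finset.mem_range, Finset.mem_Icc] at hq
    have h1 := hs _ hq.1
    have : |(s q.1 : ℤ) - q.2| ≤ A + K := abs_le.2 ⟨by omega, by omega⟩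
    omega
  · simp only [mul_add, mul_one, (hg q.2).2.1 τ]
    rw [show ((q.1 : ℕ) : ℝ) = (((q.1 : ℕ) : ℤ) : ℝ) by simp, ex_add_int]
  · rw [norm_mul, norm_mul, norm_ex, mul_one, Complex.norm_conj, Complex.norm_real,
      Real.norm_eq_abs]
    exact mul_le_mul_of_nonneg_left ((hg q.2).2.2 τ) (abs_nonneg _)

/-- The defect of flatness of the stage against a weight. -/
def defect (N : ℕ) (s : ℕ → ℕ) (H : ℕ) (R : ℝ → ℝ) : ℝ :=
  ∫ θ, bump θ * R θ * (‖flatF N s ((H : ℝ) * θ) θ‖ - 1) ^ 2 ∂leb

theorem defect_le (hN : 0 < N) (hs : ∀ j < N, s j < A) (hε : 0 ≤ ε) (hε1 : ε ≤ 1)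
    (hg : ∀ k, Measurable (g k) ∧ Function.Periodic (g k) 1 ∧ ∀ τ, ‖g k τ‖ ≤ B)
    (hG : ∀ τ θ, ‖smoothG K g τ θ‖ ≤ 1 + ε) {lam : ℝ} (hlam : 0 < lam) (hlam' : lam ≤ 1 / 4)
    {h H : ℕ} (hpos : 0 < h) (hH : h + A + K < H) {R : ℝ → ℝ} (hR : Weight h R) :
    defect N s H R ≤ 2 * (∫ θ in lam..(1 - lam), bump θ * R θ * (1 + ε - inner N s K g θ)) +
      512 * lam ^ 2 := by
  set f : ℝ → ℝ := fun θ => bump θ * R θ with hf
  set Φ : ℝ → ℝ := fun θ => ‖flatF N s ((H : ℝ) * θ) θ‖ with hΦ
  have hfc : Continuous f := continuous_bump.mul hR.continuous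
  have hΦc : Continuous Φ := by
    have := continuous_ex
    simp only [hΦ, flatF]; fun_prop
  have hfn : ∀ θ, 0 ≤ f θ := fun θ => mul_nonneg (bump_nonneg θ) (hR.nonneg θ)
  have hfT : (fun θ => (f θ : ℂ)) ∈ Trig (1 + (h - 1)) := by
    have := trig_mul trig_bump hR.trig
    simpa only [Pi.mul_def, ← Complex.ofReal_mul] using this
  have hsq := sq_mean hN hs hfT (H := H) (by omega)
  have hcr := cross_mean (K := K) hg hs hfT (H := H) (by omega)
  have hinner := continuous_inner (N := N) (s := s) (K := K) hg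
  have hlow : ∫ θ, f θ * inner N s K g θ ∂leb ≤ (1 + ε) * ∫ θ, f θ * Φ θ ∂leb := by
    have hI : Integrable (fun θ => (f θ : ℂ) * ∫ τ, flatF N s τ θ * conj (smoothG K g τ θ) ∂leb)
        leb := by
      refine Integrable.mono' (integrable_cont_real (hfc.mul continuous_const) :
        Integrable (fun θ => f θ * (1 + ε)) leb) ?_ (Filter.Eventually.of_forall fun θ => ?_)
      · refine ((Complex.continuous_ofReal.comp hfc).mul ?_).aestronglyMeasurable
        simp only [cross_eq]
        have hint : ∀ q : ℕ × ℤ, Integrable (fun τ =>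
            (((Real.sqrt N)⁻¹ : ℝ) : ℂ) * ex ((q.1 : ℝ) * τ) * conj (g q.2 τ)) leb := fun q =>
          (integrable_cont (by have := continuous_ex; fun_prop)).mul_bdd
            (Complex.continuous_conj.measurable.comp (hg q.2).1).aestronglyMeasurable
            (Filter.Eventually.of_forall fun τ => by simpa using (hg q.2).2.2 τ)
        simp only [integral_finsetSum _ fun q _ => (hint q).mul_const _, integral_mul_const]
        have := continuous_ex
        fun_prop
      · rw [norm_mul, Complex.norm_real, Real.norm_of_nonneg (hfn θ)]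
        refine mul_le_mul_of_nonneg_left ((norm_integral_le_integral_norm _).trans ?_) (hfn θ)
        have hmean : ∫ τ, ‖flatF N s τ θ‖ ^ 2 ∂leb = 1 := by
          have h := mean_sq (s := s) hN θ
          rw [integral_complex_ofReal] at h
          exact_mod_cast h
        have hsqi : Integrable (fun τ => ‖flatF N s τ θ‖ ^ 2) leb :=
          integrable_cont_real ((continuous_flatF_tau θ).norm.pow 2)
        refine (integral_mono_of_nonneg (Filter.Eventually.of_forall fun _ => norm_nonneg _)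
          (((hsqi.const_mul ((1 + ε) / 2)).add (integrable_const ((1 + ε) / 2))))
          (Filter.Eventually.of_forall fun τ => ?_)).trans_eq ?_
        · simp only [norm_mul, Complex.norm_conj, Pi.add_apply]
          refine (mul_le_mul_of_nonneg_left (hG τ θ) (norm_nonneg _)).trans ?_
          nlinarith [sq_nonneg (‖flatF N s τ θ‖ - 1)]
        · simp only [Pi.add_apply]
          rw [integral_add (hsqi.const_mul _) (integrable_const _), integral_const_mul, hmean]
          simp
    have hJ : Integrable (fun θ => (f θ : ℂ) *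
        (flatF N s ((H : ℝ) * θ) θ * conj (smoothG K g ((H : ℝ) * θ) θ))) leb := by
      refine Integrable.mono' (integrable_cont_real ((hfc.mul hΦc).mul continuous_const) :
        Integrable (fun θ => f θ * Φ θ * (1 + ε)) leb) ?_ (Filter.Eventually.of_forall fun θ => ?_)
      · refine ((Complex.continuous_ofReal.comp hfc).measurable.mul ?_).aestronglyMeasurable
        refine Measurable.mul (by have := continuous_ex; unfold flatF; fun_prop) ?_
        refine Complex.continuous_conj.measurable.comp ?_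
        unfold smoothG
        exact Finset.measurable_sum _ fun k _ => ((hg k).1.comp (measurable_const_mul _)).mul
          (continuous_ex.comp (continuous_const.mul continuous_id)).measurable
      · rw [norm_mul, norm_mul, Complex.norm_real, Real.norm_of_nonneg (hfn θ), Complex.norm_conj,
          ← mul_assoc]
        exact mul_le_mul_of_nonneg_left (hG _ _) (mul_nonneg (hfn θ) (norm_nonneg _))
    have h1 : ∫ θ, f θ * inner N s K g θ ∂leb = (∫ θ, (f θ : ℂ) *
        (flatF N s ((H : ℝ) * θ) θ * conj (smoothG K g ((H : ℝ) * θ) θ)) ∂leb).re := by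
      rw [hcr, ← RCLike.re_eq_complex_re, ← integral_re hI]
      refine integral_congr_ae (Filter.Eventually.of_forall fun θ => ?_)
      simp [inner]
    rw [h1, ← integral_const_mul]
    refine (Complex.re_le_norm _).trans (norm_integral_le_of_norm_le
      ((integrable_cont_real (hfc.mul hΦc)).const_mul _) (Filter.Eventually.of_forall fun θ => ?_))
    rw [norm_mul, norm_mul, Complex.norm_real, Real.norm_of_nonneg (hfn θ), Complex.norm_conj,
      mul_comm (1 + ε), ← mul_assoc]
    exact mul_le_mul_of_nonneg_left (hG _ _) (mul_nonneg (hfn θ) (norm_nonneg _))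
  set q : ℝ → ℝ := fun θ => f θ * (1 + ε - inner N s K g θ) with hq
  have hqc : Continuous q := hfc.mul (continuous_const.sub hinner)
  have hqn : ∀ θ, 0 ≤ q θ := fun θ =>
    mul_nonneg (hfn θ) (by linarith [(abs_le.1 (inner_le (s := s) hN hG θ)).2])
  have hqint : ∫ θ, q θ ∂leb ≤ (∫ θ in lam..(1 - lam), q θ) + 256 * lam ^ 2 := by
    have hbound : ∀ θ ∈ Set.Ioc (0 : ℝ) 1,
        q θ ≤ (Set.Ioc lam (1 - lam)).indicator q θ + 256 * lam ^ 2 * R θ := by
      intro θ hθ
      by_cases hmid : θ ∈ Set.Ioc lam (1 - lam)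
      · rw [Set.indicator_of_mem hmid]
        have := mul_nonneg (show (0 : ℝ) ≤ 256 * lam ^ 2 by positivity) (hR.nonneg θ)
        linarith
      · rw [Set.indicator_of_notMem hmid, zero_add]
        have hb : bump θ ≤ 64 * lam ^ 2 := by
          refine bump_small hθ.1.le hθ.2 hlam.le ?_
          rcases not_and_or.1 hmid with h | h
          · exact Or.inl (not_lt.1 h)
          · exact Or.inr (not_le.1 h).le
        have hi : 1 + ε - inner N s K g θ ≤ 4 := by
          linarith [(abs_le.1 (inner_le (s := s) hN hG θ)).1]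
        calc q θ ≤ 64 * lam ^ 2 * R θ * 4 := by
              simp only [hq, hf]
              refine mul_le_mul (mul_le_mul_of_nonneg_right hb (hR.nonneg θ)) hi ?_ ?_
              · linarith [(abs_le.1 (inner_le (s := s) hN hG θ)).2]
              · have := hR.nonneg θ; positivity
          _ = 256 * lam ^ 2 * R θ := by ring
    have hqi : Integrable q leb := integrable_cont_real hqc
    have hRi : Integrable R leb := integrable_cont_real hR.continuous
    calc ∫ θ, q θ ∂leb ≤ ∫ θ, (Set.Ioc lam (1 - lam)).indicator q θ + 256 * lam ^ 2 * R θ ∂leb := by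
          refine integral_mono_ae hqi ((hqi.indicator measurableSet_Ioc).add (hRi.const_mul _)) ?_
          exact (ae_restrict_mem measurableSet_Ioc).mono hbound
      _ = _ := by
          rw [integral_add (hqi.indicator measurableSet_Ioc) (hRi.const_mul _),
            integral_const_mul, hR.mass, mul_one, integral_indicator measurableSet_Ioc, leb,
            Measure.restrict_restrict measurableSet_Ioc,
            Set.inter_eq_self_of_subset_left (Set.Ioc_subset_Ioc hlam.le (by linarith)),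
            intervalIntegral.integral_of_le (by linarith)]
  have hexp : defect N s H R = 2 * ∫ θ, f θ ∂leb - 2 * ∫ θ, f θ * Φ θ ∂leb := by
    have h1 : ∀ θ, f θ * (Φ θ - 1) ^ 2 = f θ * Φ θ ^ 2 + f θ - 2 * (f θ * Φ θ) := fun θ => by ring
    change ∫ θ, f θ * (Φ θ - 1) ^ 2 ∂leb = _
    simp only [h1]
    have i1 : Integrable (fun θ => f θ * Φ θ ^ 2) leb := integrable_cont_real (hfc.mul (hΦc.pow 2))
    have i2 : Integrable f leb := integrable_cont_real hfc
    have i3 : Integrable (fun θ => 2 * (f θ * Φ θ)) leb :=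
      (integrable_cont_real (hfc.mul hΦc)).const_mul 2
    have h12 : ∫ θ, f θ * Φ θ ^ 2 ∂leb = ∫ θ, f θ ∂leb := hsq
    rw [integral_sub (f := fun θ => f θ * Φ θ ^ 2 + f θ) (i1.add i2) i3, integral_add i1 i2,
      integral_const_mul, h12]
    ring
  have hqsum : ∫ θ, q θ ∂leb = (1 + ε) * ∫ θ, f θ ∂leb - ∫ θ, f θ * inner N s K g θ ∂leb := by
    simp only [hq, mul_sub]
    have j1 : Integrable (fun θ => f θ * (1 + ε)) leb := (integrable_cont_real hfc).mul_const _
    have j2 : Integrable (fun θ => f θ * inner N s K g θ) leb :=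
      integrable_cont_real (hfc.mul hinner)
    rw [integral_sub j1 j2, integral_mul_const, mul_comm]
  have h0 : 0 ≤ ∫ θ, q θ ∂leb := integral_nonneg hqn
  rw [hexp]
  change _ ≤ 2 * (∫ θ in lam..(1 - lam), q θ) + 512 * lam ^ 2
  nlinarith [mul_nonneg hε h0]

/-- A flat sum for the sum of the weights is flat against each of them. -/
theorem flat_weights (hF : FlatStmt) (ε lam : ℝ) (hε : 0 < ε) (hε1 : ε ≤ 1) (hlam : 0 < lam)
    (hlam' : lam ≤ 1 / 4) :
    ∃ A K N₀ : ℕ, ∀ N : ℕ, N₀ ≤ N → 0 < N → ∀ h H : ℕ, 0 < h → h + A + K < H →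
      ∀ (ι : Type) (S : Finset ι) (R : ι → ℝ → ℝ), (∀ i ∈ S, Weight h (R i)) →
      ∃ s : ℕ → ℕ, (∀ j < N, s j < A) ∧
        ∀ i ∈ S, defect N s H (R i) ≤ 16 * ε * S.card + 512 * lam ^ 2 := by
  obtain ⟨A, K, N₀, hA⟩ := hF ε hε lam hlam hlam'
  refine ⟨A, K, N₀, fun N hN hNpos h H hh hH ι S R hR => ?_⟩
  obtain ⟨s, g, B, hs, hg, hG, hmain⟩ := hA N hN (fun θ => ∑ i ∈ S, bump θ * R i θ)
    (continuous_finsetSum _ fun i hi => continuous_bump.mul (hR i hi).continuous)
    (fun θ => Finset.sum_nonneg fun i hi => mul_nonneg (bump_nonneg θ) ((hR i hi).nonneg θ))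
  refine ⟨s, hs, fun i hi => (defect_le hNpos hs hε.le hε1 hg hG hlam hlam' hh hH (hR i hi)).trans ?_⟩
  set q : ι → ℝ → ℝ := fun i θ => bump θ * R i θ * (1 + ε - inner N s K g θ) with hq
  have hinner := continuous_inner (N := N) (s := s) (K := K) hg
  have hbR : ∀ i ∈ S, IntervalIntegrable (fun θ => bump θ * R i θ) volume lam (1 - lam) :=
    fun i hi => (continuous_bump.mul (hR i hi).continuous).intervalIntegrable _ _
  have hqi : ∀ i ∈ S, IntervalIntegrable (q i) volume lam (1 - lam) := fun i hi =>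
    ((continuous_bump.mul (hR i hi).continuous).mul
      (continuous_const.sub hinner)).intervalIntegrable _ _
  have hqn : ∀ i ∈ S, 0 ≤ ∫ θ in lam..(1 - lam), q i θ := fun i hi =>
    intervalIntegral.integral_nonneg (by linarith) fun θ _ =>
      mul_nonneg (mul_nonneg (bump_nonneg θ) ((hR i hi).nonneg θ))
        (by linarith [(abs_le.1 (inner_le (s := s) hNpos hG θ)).2])
  have hone : ∀ i ∈ S, ∫ θ in lam..(1 - lam), bump θ * R i θ ≤ 4 := fun i hi => by
    calc ∫ θ in lam..(1 - lam), bump θ * R i θ ≤ ∫ θ in (0 : ℝ)..1, bump θ * R i θ := by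
          refine intervalIntegral.integral_mono_interval hlam.le (by linarith) (by linarith)
            (Filter.Eventually.of_forall fun θ => mul_nonneg (bump_nonneg θ) ((hR i hi).nonneg θ))
            ((continuous_bump.mul (hR i hi).continuous).intervalIntegrable _ _)
      _ ≤ ∫ θ in (0 : ℝ)..1, 4 * R i θ := by
          refine intervalIntegral.integral_mono_on zero_le_one
            ((continuous_bump.mul (hR i hi).continuous).intervalIntegrable _ _)
            ((continuous_const.mul (hR i hi).continuous).intervalIntegrable _ _)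
            fun θ _ => mul_le_mul_of_nonneg_right (bump_le_four θ) ((hR i hi).nonneg θ)
      _ = 4 := by
          rw [intervalIntegral.integral_const_mul, intervalIntegral.integral_of_le zero_le_one,
            ← leb, (hR i hi).mass, mul_one]
  have hsum : ∑ i ∈ S, ∫ θ in lam..(1 - lam), q i θ ≤ 8 * ε * S.card := by
    have hW : ∫ θ in lam..(1 - lam), ∑ i ∈ S, bump θ * R i θ ≤ 4 * S.card := by
      rw [intervalIntegral.integral_finsetSum hbR]
      exact (Finset.sum_le_sum hone).trans_eq (by simp [mul_comm])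
    have hWc : Continuous fun θ => ∑ i ∈ S, bump θ * R i θ :=
      continuous_finsetSum _ fun i hi => continuous_bump.mul (hR i hi).continuous
    rw [← intervalIntegral.integral_finsetSum hqi]
    have : ∀ θ, ∑ i ∈ S, q i θ = (1 + ε) * (∑ i ∈ S, bump θ * R i θ) -
        (∑ i ∈ S, bump θ * R i θ) * inner N s K g θ := fun θ => by
      simp only [hq]
      rw [← Finset.sum_mul]; ring
    simp only [this]
    have j1 : IntervalIntegrable (fun θ => (1 + ε) * ∑ i ∈ S, bump θ * R i θ) volume lam (1 - lam) :=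
      (continuous_const.mul hWc).intervalIntegrable _ _
    have j2 : IntervalIntegrable (fun θ => (∑ i ∈ S, bump θ * R i θ) * inner N s K g θ) volume
        lam (1 - lam) := (hWc.mul hinner).intervalIntegrable _ _
    rw [intervalIntegral.integral_sub j1 j2, intervalIntegral.integral_const_mul]
    change _ - (∫ θ in lam..(1 - lam), (∑ i ∈ S, bump θ * R i θ) *
      (∫ τ, flatF N s τ θ * (starRingEnd ℂ) (smoothG K g τ θ) ∂leb).re) ≤ _
    nlinarith [mul_le_mul_of_nonneg_left hW hε.le]
  have := (Finset.single_le_sum hqn hi).trans hsum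
  linarith

end Stage

end

end Vale.Agent.P130.Flat
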