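import Vale.Agent.P130.Flat.Interfaces

/-!
P130, stages: trigonometric polynomials and the exact separation of a fast periodic factor.
-/

namespace Vale.Agent.P130.Flat

open MeasureTheory Finset Filter
open scoped Topology ComplexConjugate

noncomputable section

namespace Stage

theorem ex_add (a b : ℝ) : ex (a + b) = ex a * ex b := by
  rw [ex, ex, ex, ← Complex.exp_add]; push_cast; ring_nf

theorem norm_ex (x : ℝ) : ‖ex x‖ = 1 := Complex.norm_exp_ofReal_mul_I _

theorem conj_ex (x : ℝ) : conj (ex x) = ex (-x) := by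
  rw [ex, ex, ← Complex.exp_conj]; push_cast; simp [map_ofNat]

theorem ex_zero : ex 0 = 1 := by simp [ex]

theorem ex_int (n : ℤ) : ex (n : ℝ) = 1 :=
  Complex.exp_eq_one_iff.2 ⟨n, by push_cast; ring⟩

theorem ex_eq_one_iff (x : ℝ) : ex x = 1 ↔ ∃ n : ℤ, x = n := by
  refine ⟨fun h => ?_, fun ⟨n, hn⟩ => hn ▸ ex_int n⟩
  obtain ⟨n, hn⟩ := Complex.exp_eq_one_iff.1 h
  refine ⟨n, ?_⟩
  have h2 := congrArg Complex.im hn
  simp at h2
  nlinarith [Real.pi_pos]

theorem ex_add_int (x : ℝ) (n : ℤ) : ex (x + n) = ex x := by rw [ex_add, ex_int, mul_one]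

theorem continuous_ex : Continuous ex := by unfold ex; fun_prop

theorem norm_ex_sub_one (x : ℝ) : ‖1 - ex x‖ ≤ 2 * Real.pi * |x| := by
  rw [norm_sub_rev, ex, mul_comm _ Complex.I]
  refine Real.norm_exp_I_mul_ofReal_sub_one_le.trans_eq ?_
  rw [Real.norm_eq_abs, abs_mul, abs_of_pos Real.two_pi_pos]

theorem bump_nonneg (θ : ℝ) : 0 ≤ bump θ := sq_nonneg _

theorem bump_le_four (θ : ℝ) : bump θ ≤ 4 := by
  have h : ‖1 - ex θ‖ ≤ 2 := by
    refine (norm_sub_le _ _).trans ?_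
    rw [norm_one, norm_ex]; norm_num
  have := pow_le_pow_left₀ (norm_nonneg _) h 2
  unfold bump
  linarith

theorem continuous_bump : Continuous bump := by
  have := continuous_ex
  unfold bump; fun_prop

theorem bump_eq (θ : ℝ) :
    (bump θ : ℂ) = 2 * ex ((0 : ℤ) * θ) - ex ((1 : ℤ) * θ) - ex ((-1 : ℤ) * θ) := by
  rw [bump, Complex.ofReal_pow, ← Complex.mul_conj', map_sub, map_one, conj_ex]
  push_cast
  rw [zero_mul, one_mul, neg_one_mul, ex_zero]
  have : ex θ * ex (-θ) = 1 := by rw [← ex_add, add_neg_cancel, ex_zero]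
  linear_combination this

theorem bump_small {lam θ : ℝ} (h0 : 0 ≤ θ) (h1 : θ ≤ 1) (_hlam : 0 ≤ lam)
    (h : θ ≤ lam ∨ 1 - lam ≤ θ) : bump θ ≤ 64 * lam ^ 2 := by
  have key : ‖1 - ex θ‖ ≤ 8 * lam := by
    rcases h with h | h
    · refine (norm_ex_sub_one θ).trans ?_
      rw [abs_of_nonneg h0]; nlinarith [Real.pi_le_four, Real.pi_pos]
    · rw [← ex_add_int θ (-1)]
      refine (norm_ex_sub_one _).trans ?_
      push_cast
      rw [abs_of_nonpos (by linarith)]
      nlinarith [Real.pi_le_four, Real.pi_pos]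
  have := pow_le_pow_left₀ (norm_nonneg _) key 2
  unfold bump
  linarith

instance : IsProbabilityMeasure leb := by
  refine ⟨?_⟩
  simp [leb]

theorem leb_integral (f : ℝ → ℂ) : ∫ θ, f θ ∂leb = ∫ θ in (0 : ℝ)..1, f θ :=
  (intervalIntegral.integral_of_le zero_le_one).symm

theorem integrable_bdd {f : ℝ → ℂ} (hf : Measurable f) (B : ℝ) (h : ∀ θ, ‖f θ‖ ≤ B) :
    Integrable f leb :=
  Integrable.of_bound hf.aestronglyMeasurable B (Filter.Eventually.of_forall h)

theorem integrable_cont {f : ℝ → ℂ} (hf : Continuous f) : Integrable f leb :=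
  (hf.integrableOn_Icc (a := (0 : ℝ)) (b := 1)).mono_set Set.Ioc_subset_Icc_self

theorem integrable_cont_real {f : ℝ → ℝ} (hf : Continuous f) : Integrable f leb :=
  (hf.integrableOn_Icc (a := (0 : ℝ)) (b := 1)).mono_set Set.Ioc_subset_Icc_self

theorem integral_fast_mono (n : ℤ) (H : ℕ) (h : |n| < (H : ℤ)) {g : ℝ → ℂ}
    (hg : Measurable g) (hp : Function.Periodic g 1) (B : ℝ) (hB : ∀ τ, ‖g τ‖ ≤ B) :
    ∫ θ, ex ((n : ℝ) * θ) * g ((H : ℝ) * θ) ∂leb = if n = 0 then ∫ τ, g τ ∂leb else 0 := by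
  have hHpos : 0 < H := by
    have := (abs_nonneg n).trans_lt h
    omega
  have hH : (H : ℝ) ≠ 0 := by exact_mod_cast hHpos.ne'
  rw [leb_integral, leb_integral]
  split_ifs with hn
  · subst hn
    simp only [Int.cast_zero, zero_mul, ex_zero, one_mul]
    rw [intervalIntegral.integral_comp_mul_left g hH, mul_zero, mul_one]
    have hint : ∀ t₁ t₂ : ℝ, IntervalIntegrable g volume t₁ t₂ := fun t₁ t₂ =>
      intervalIntegrable_iff.2 (Measure.integrableOn_of_bounded (M := B) measure_Ioc_lt_top.ne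
        hg.aestronglyMeasurable (Filter.Eventually.of_forall hB))
    have h2 := hp.intervalIntegral_add_zsmul_eq (H : ℤ) 0 hint
    simp only [zero_add, zsmul_eq_mul, Int.cast_natCast, mul_one] at h2
    rw [h2, Complex.real_smul, ← mul_assoc]
    push_cast
    rw [inv_mul_cancel₀ (by exact_mod_cast hHpos.ne'), one_mul]
  · set f : ℝ → ℂ := fun θ => ex ((n : ℝ) * θ) * g ((H : ℝ) * θ) with hf
    have hper : Function.Periodic f 1 := fun θ => by
      simp only [hf, mul_add, mul_one]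
      rw [ex_add_int, show (H : ℝ) * θ + H = (H : ℝ) * θ + (H : ℕ) • (1 : ℝ) by simp]
      rw [(hp.nsmul H) _]
    have hshift : ∀ θ, f (θ + (H : ℝ)⁻¹) = ex ((n : ℝ) / H) * f θ := fun θ => by
      simp only [hf, mul_add, mul_inv_cancel₀ hH, hp _]
      rw [ex_add, div_eq_mul_inv]; ring
    have h1 : ∫ θ in (0 : ℝ)..1, f (θ + (H : ℝ)⁻¹) = ∫ θ in (0 : ℝ)..1, f θ := by
      rw [intervalIntegral.integral_comp_add_right, zero_add, add_comm (1 : ℝ)]
      have := hper.intervalIntegral_add_eq ((H : ℝ)⁻¹) 0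
      rwa [zero_add] at this
    simp only [hshift, intervalIntegral.integral_const_mul] at h1
    have hne : ex ((n : ℝ) / H) ≠ 1 := by
      rw [Ne, ex_eq_one_iff]
      rintro ⟨q, hq⟩
      rw [div_eq_iff hH] at hq
      have : n = q * H := by exact_mod_cast hq
      exact hn (Int.eq_zero_of_abs_lt_dvd ⟨q, this.trans (mul_comm _ _)⟩ h)
    have h3 : (ex ((n : ℝ) / H) - 1) * ∫ θ in (0 : ℝ)..1, f θ = 0 := by
      rw [sub_mul, h1, one_mul, sub_self]
    exact (mul_eq_zero.1 h3).resolve_left (sub_ne_zero.2 hne)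

theorem integral_ex (n : ℤ) : ∫ θ, ex ((n : ℝ) * θ) ∂leb = if n = 0 then 1 else 0 := by
  have h := integral_fast_mono n (n.natAbs + 1) (by rw [Int.abs_eq_natAbs]; omega) (g := fun _ => 1) measurable_const
    (fun _ => rfl) 1 (fun _ => by simp)
  simpa using h

/-- The trigonometric polynomials of degree at most `d`. -/
def Trig (d : ℕ) : Submodule ℂ (ℝ → ℂ) :=
  Submodule.span ℂ {f | ∃ k : ℤ, |k| ≤ d ∧ f = fun θ => ex ((k : ℝ) * θ)}

theorem ex_mem {d : ℕ} {k : ℤ} (h : |k| ≤ d) : (fun θ => ex ((k : ℝ) * θ)) ∈ Trig d :=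
  Submodule.subset_span ⟨k, h, rfl⟩

theorem trig_mono {d d' : ℕ} (h : d ≤ d') : Trig d ≤ Trig d' :=
  Submodule.span_mono fun _ ⟨k, hk, hf⟩ => ⟨k, hk.trans (by exact_mod_cast h), hf⟩

theorem trig_one : (1 : ℝ → ℂ) ∈ Trig 0 := by
  convert ex_mem (d := 0) (k := 0) (by simp) using 1
  ext θ; simp [ex_zero]

theorem trig_mul {a b : ℕ} {f g : ℝ → ℂ} (hf : f ∈ Trig a) (hg : g ∈ Trig b) :
    f * g ∈ Trig (a + b) := by
  have h : (Trig a : Submodule ℂ (ℝ → ℂ)) * Trig b ≤ Trig (a + b) := by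
    rw [Trig, Trig, Submodule.span_mul_span, Submodule.span_le]
    rintro _ ⟨x, ⟨k, hk, rfl⟩, y, ⟨l, hl, rfl⟩, rfl⟩
    refine Submodule.subset_span ⟨k + l, (abs_add_le k l).trans (by push_cast; linarith), ?_⟩
    funext θ
    simp [← ex_add, add_mul]
  exact h (Submodule.mul_mem_mul hf hg)

theorem trig_continuous {d : ℕ} {f : ℝ → ℂ} (hf : f ∈ Trig d) : Continuous f := by
  induction hf using Submodule.span_induction with
  | mem x hx =>
    obtain ⟨k, -, rfl⟩ := hx
    exact continuous_ex.comp (continuous_const.mul continuous_id)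
  | zero => exact continuous_const
  | add x y _ _ hx hy => exact hx.add hy
  | smul c x _ hx => exact hx.const_smul c

theorem trig_bump : (fun θ => (bump θ : ℂ)) ∈ Trig 1 := by
  have h : (fun θ => (bump θ : ℂ)) = (2 : ℂ) • (fun θ => ex (((0 : ℤ) : ℝ) * θ)) -
      (fun θ => ex (((1 : ℤ) : ℝ) * θ)) - fun θ => ex (((-1 : ℤ) : ℝ) * θ) := by
    funext θ
    simp only [Pi.sub_apply, Pi.smul_apply, smul_eq_mul]
    exact bump_eq θ
  rw [h]
  exact sub_mem (sub_mem (Submodule.smul_mem _ _ (ex_mem (by simp))) (ex_mem (by simp)))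
    (ex_mem (by simp))

/-- A polynomial of low degree does not see a fast periodic factor. -/
theorem separate {d : ℕ} {f : ℝ → ℂ} (hf : f ∈ Trig d) (k : ℤ) (H : ℕ)
    (h : (d : ℤ) + |k| < H) {g : ℝ → ℂ} (hg : Measurable g) (hp : Function.Periodic g 1)
    (B : ℝ) (hB : ∀ τ, ‖g τ‖ ≤ B) :
    ∫ θ, f θ * ex ((k : ℝ) * θ) * g ((H : ℝ) * θ) ∂leb =
      (∫ θ, f θ * ex ((k : ℝ) * θ) ∂leb) * ∫ τ, g τ ∂leb := by
  have hgH : Measurable fun θ => g ((H : ℝ) * θ) := hg.comp (measurable_const_mul _)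
  have hintg : ∀ {u : ℝ → ℂ}, u ∈ Trig d →
      Integrable (fun θ => u θ * ex ((k : ℝ) * θ) * g ((H : ℝ) * θ)) leb := fun hu =>
    (integrable_cont ((trig_continuous hu).mul
      (continuous_ex.comp (continuous_const.mul continuous_id)))).mul_bdd
        hgH.aestronglyMeasurable (Filter.Eventually.of_forall fun θ => hB _)
  have hint : ∀ {u : ℝ → ℂ}, u ∈ Trig d →
      Integrable (fun θ => u θ * ex ((k : ℝ) * θ)) leb := fun hu =>
    integrable_cont ((trig_continuous hu).mul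
      (continuous_ex.comp (continuous_const.mul continuous_id)))
  induction hf using Submodule.span_induction with
  | mem x hx =>
    obtain ⟨m, hm, rfl⟩ := hx
    have he : ∀ θ, ex ((m : ℝ) * θ) * ex ((k : ℝ) * θ) = ex (((m + k : ℤ) : ℝ) * θ) := fun θ => by
      rw [← ex_add]; push_cast; ring_nf
    simp only [he]
    rw [integral_fast_mono (m + k) H (lt_of_le_of_lt (abs_add_le m k) (by linarith)) hg hp B hB,
      integral_ex]
    split_ifs <;> simp
  | zero => simp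
  | add x y hx hy h1 h2 =>
    simp only [Pi.add_apply, add_mul]
    rw [integral_add (hintg hx) (hintg hy), integral_add (hint hx) (hint hy), h1, h2, add_mul]
  | smul c x hx h1 =>
    simp only [Pi.smul_apply, smul_eq_mul, mul_assoc] at h1 ⊢
    rw [integral_const_mul, integral_const_mul, h1, mul_assoc]

theorem separate_sum {d : ℕ} {f : ℝ → ℂ} (hf : f ∈ Trig d) (H : ℕ) {ι : Type*} (S : Finset ι)
    (m : ι → ℤ) (hm : ∀ i ∈ S, (d : ℤ) + |m i| < H) (a : ι → ℝ → ℂ)
    (ha : ∀ i, Measurable (a i)) (hp : ∀ i, Function.Periodic (a i) 1) (B : ℝ)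
    (hB : ∀ i τ, ‖a i τ‖ ≤ B) :
    ∫ θ, f θ * ∑ i ∈ S, a i ((H : ℝ) * θ) * ex ((m i : ℝ) * θ) ∂leb =
      ∫ θ, f θ * ∫ τ, (∑ i ∈ S, a i τ * ex ((m i : ℝ) * θ)) ∂leb ∂leb := by
  have hc : ∀ i, Continuous fun θ => f θ * ex ((m i : ℝ) * θ) := fun i =>
    (trig_continuous hf).mul (continuous_ex.comp (continuous_const.mul continuous_id))
  have h1 : ∀ θ, f θ * ∑ i ∈ S, a i ((H : ℝ) * θ) * ex ((m i : ℝ) * θ) =
      ∑ i ∈ S, f θ * ex ((m i : ℝ) * θ) * a i ((H : ℝ) * θ) := fun θ => by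
    rw [Finset.mul_sum]; exact Finset.sum_congr rfl fun i _ => by ring
  have h2 : ∀ θ, f θ * ∫ τ, (∑ i ∈ S, a i τ * ex ((m i : ℝ) * θ)) ∂leb =
      ∑ i ∈ S, f θ * ex ((m i : ℝ) * θ) * ∫ τ, a i τ ∂leb := fun θ => by
    rw [integral_finsetSum _ fun i _ => (integrable_bdd (ha i) B (hB i)).mul_const _,
      Finset.mul_sum]
    refine Finset.sum_congr rfl fun i _ => ?_
    rw [integral_mul_const]; ring
  simp only [h1, h2]
  have hi1 : ∀ i, Integrable (fun θ => f θ * ex ((m i : ℝ) * θ) * a i ((H : ℝ) * θ)) leb :=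
    fun i => (integrable_cont (hc i)).mul_bdd
      ((ha i).comp (measurable_const_mul _)).aestronglyMeasurable
      (Filter.Eventually.of_forall fun θ => hB i _)
  rw [integral_finsetSum _ fun i _ => hi1 i,
    integral_finsetSum _ fun i _ => (integrable_cont (hc i)).mul_const _]
  refine Finset.sum_congr rfl fun i hi => ?_
  rw [separate hf (m i) H (hm i hi) (ha i) (hp i) B (hB i), integral_mul_const]

end Stage

end

end Vale.Agent.P130.Flat
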